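import Mathlib

/-!
# Park-Pham minimal fragments, from a spread weight

`wt p W` is the product measure on `Finset α`; a weight `ν` on `Finset α` that is `q`-spread
(`Σ_{S ⊇ T} ν S ≤ q ^ |T|`) with support in sets of size at most `ℓ < 2 ^ r` has
`Prob ν (1 - (1 - p) ^ r) ≥ Σ ν - 1/32` when `2048 q ≤ p`.
-/

set_option autoImplicit false

open Finset

namespace Crest.Agent.Lib.SpreadPP

variable {α : Type} [Fintype α] [DecidableEq α]

/-- product weight -/
noncomputable def wt (p : ℝ) (W : Finset α) : ℝ := ∏ a : α, if a ∈ W then p else 1 - p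

lemma wt_nonneg {p : ℝ} (h0 : 0 ≤ p) (h1 : p ≤ 1) (W : Finset α) : 0 ≤ wt p W :=
  Finset.prod_nonneg fun a _ => by split_ifs <;> linarith

lemma wt_eq (p : ℝ) (W : Finset α) :
    wt p W = p ^ W.card * (1 - p) ^ (Fintype.card α - W.card) := by
  unfold wt
  rw [Finset.prod_ite, Finset.prod_const, Finset.prod_const]
  congr 2
  · simp
  · rw [Finset.filter_not, Finset.filter_mem_eq_inter, Finset.univ_inter,
      Finset.card_sdiff_of_subset (Finset.subset_univ _), Finset.card_univ]

lemma sum_wt (p : ℝ) : ∑ W : Finset α, wt p W = 1 := by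
  have := Finset.sum_pow_mul_eq_add_pow p (1 - p) (Finset.univ : Finset α)
  rw [Finset.powerset_univ] at this
  simp only [wt_eq, Finset.card_univ] at *
  rw [this]; simp

section Union

private noncomputable def toSet' (ω : α → Bool) : Finset α := Finset.univ.filter fun a => ω a = true

private def ofSet' (W : Finset α) : α → Bool := fun a => decide (a ∈ W)

private lemma toSet'_ofSet' (W : Finset α) : toSet' (ofSet' W) = W := by
  ext a; simp [toSet', ofSet']

private lemma ofSet'_toSet' (ω : α → Bool) : ofSet' (toSet' ω) = ω := by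
  funext a; simp [toSet', ofSet']

/-- Finsets vs boolean functions. -/
noncomputable def boolEquiv : (α → Bool) ≃ Finset α where
  toFun := toSet'
  invFun := ofSet'
  left_inv := ofSet'_toSet'
  right_inv := toSet'_ofSet'

lemma boolEquiv_apply_mem (ω : α → Bool) (a : α) : a ∈ boolEquiv ω ↔ ω a = true := by
  change a ∈ toSet' ω ↔ _
  simp [toSet']

private lemma union_bool (p₁ p₂ : ℝ) (f : (α → Bool) → ℝ) :
    (∑ ω₁ : α → Bool, ∑ ω₂ : α → Bool,
        (∏ a, if ω₁ a then p₁ else 1 - p₁) * (∏ a, if ω₂ a then p₂ else 1 - p₂) *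
          f (fun a => ω₁ a || ω₂ a)) =
      ∑ ω : α → Bool, (∏ a, if ω a then 1 - (1 - p₁) * (1 - p₂) else (1 - p₁) * (1 - p₂)) * f ω := by
  classical
  -- fibre decomposition
  have key : ∀ ω : α → Bool,
      (∑ x : (α → Bool) × (α → Bool),
          if (fun a => x.1 a || x.2 a) = ω then
            (∏ a, if x.1 a then p₁ else 1 - p₁) * (∏ a, if x.2 a then p₂ else 1 - p₂) else 0) =
        ∏ a, if ω a then 1 - (1 - p₁) * (1 - p₂) else (1 - p₁) * (1 - p₂) := by
    intro ω
    have h1 : (∏ a, if ω a then 1 - (1 - p₁) * (1 - p₂) else (1 - p₁) * (1 - p₂)) =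
        ∏ a, ∑ b ∈ (Finset.univ : Finset (Bool × Bool)).filter (fun b => (b.1 || b.2) = ω a),
          (if b.1 then p₁ else 1 - p₁) * (if b.2 then p₂ else 1 - p₂) := by
      refine Finset.prod_congr rfl fun a _ => ?_
      cases h : ω a
      · have : (Finset.univ : Finset (Bool × Bool)).filter (fun b => (b.1 || b.2) = false)
            = {(false, false)} := by decide
        rw [this, Finset.sum_singleton]; simp
      · have : (Finset.univ : Finset (Bool × Bool)).filter (fun b => (b.1 || b.2) = true)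
            = {(true, true), (true, false), (false, true)} := by decide
        rw [this, Finset.sum_insert (by decide), Finset.sum_insert (by decide),
          Finset.sum_singleton]
        simp; ring
    rw [h1, Finset.prod_univ_sum]
    -- reindex
    have h2 : (∑ x : (α → Bool) × (α → Bool),
          if (fun a => x.1 a || x.2 a) = ω then
            (∏ a, if x.1 a then p₁ else 1 - p₁) * (∏ a, if x.2 a then p₂ else 1 - p₂) else 0) =
        ∑ y : α → Bool × Bool,
          if (fun a => (y a).1 || (y a).2) = ω then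
            (∏ a, if (y a).1 then p₁ else 1 - p₁) * (∏ a, if (y a).2 then p₂ else 1 - p₂) else 0 := by
      refine (Finset.sum_equiv (Equiv.arrowProdEquivProdArrow α (fun _ => Bool) (fun _ => Bool)).symm
        (by simp) ?_)
      intro x _
      rfl
    rw [h2]
    rw [← Finset.sum_filter]
    refine Finset.sum_congr ?_ ?_
    · ext y
      simp only [Finset.mem_filter, Finset.mem_univ, true_and, Fintype.mem_piFinset, funext_iff]
    · intro y _
      rw [Finset.prod_mul_distrib]
  calc (∑ ω₁ : α → Bool, ∑ ω₂ : α → Bool,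
        (∏ a, if ω₁ a then p₁ else 1 - p₁) * (∏ a, if ω₂ a then p₂ else 1 - p₂) *
          f (fun a => ω₁ a || ω₂ a))
      = ∑ x : (α → Bool) × (α → Bool),
          (∏ a, if x.1 a then p₁ else 1 - p₁) * (∏ a, if x.2 a then p₂ else 1 - p₂) *
            f (fun a => x.1 a || x.2 a) := by
        rw [Fintype.sum_prod_type]
    _ = ∑ x : (α → Bool) × (α → Bool), ∑ ω : α → Bool,
          (if (fun a => x.1 a || x.2 a) = ω then
            (∏ a, if x.1 a then p₁ else 1 - p₁) * (∏ a, if x.2 a then p₂ else 1 - p₂) else 0) * f ω := by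
        refine Finset.sum_congr rfl fun x _ => ?_
        rw [Finset.sum_eq_single (fun a => x.1 a || x.2 a)]
        · simp
        · intro b _ hb
          rw [if_neg (fun h => hb h.symm)]; simp
        · simp
    _ = ∑ ω : α → Bool, (∑ x : (α → Bool) × (α → Bool),
          if (fun a => x.1 a || x.2 a) = ω then
            (∏ a, if x.1 a then p₁ else 1 - p₁) * (∏ a, if x.2 a then p₂ else 1 - p₂) else 0) * f ω := by
        rw [Finset.sum_comm]
        refine Finset.sum_congr rfl fun ω _ => ?_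
        rw [Finset.sum_mul]
    _ = _ := by
        refine Finset.sum_congr rfl fun ω _ => ?_
        rw [key]

/-- Union of independent product sets is a product set. -/
lemma union_wt (p₁ p₂ : ℝ) (f : Finset α → ℝ) :
    (∑ W₁ : Finset α, ∑ W₂ : Finset α, wt p₁ W₁ * wt p₂ W₂ * f (W₁ ∪ W₂)) =
      ∑ Z : Finset α, wt (1 - (1 - p₁) * (1 - p₂)) Z * f Z := by
  have e := union_bool (α := α) p₁ p₂ (fun ω => f (boolEquiv ω))
  have hw : ∀ (p : ℝ) (ω : α → Bool), (∏ a, if ω a then p else 1 - p) = wt p (boolEquiv ω) := by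
    intro p ω
    unfold wt
    refine Finset.prod_congr rfl fun a _ => ?_
    simp only [boolEquiv_apply_mem]
  have hw' : ∀ (ω : α → Bool),
      (∏ a, if ω a then 1 - (1 - p₁) * (1 - p₂) else (1 - p₁) * (1 - p₂)) =
        wt (1 - (1 - p₁) * (1 - p₂)) (boolEquiv ω) := by
    intro ω
    unfold wt
    refine Finset.prod_congr rfl fun a _ => ?_
    simp only [boolEquiv_apply_mem]
    split_ifs <;> ring
  have hu : ∀ ω₁ ω₂ : α → Bool,
      boolEquiv (fun a => ω₁ a || ω₂ a) = boolEquiv ω₁ ∪ boolEquiv ω₂ := by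
    intro ω₁ ω₂; ext a
    simp [boolEquiv_apply_mem]
  simp only [hw, hu] at e
  simp only [hw'] at e
  have l : (∑ W₁ : Finset α, ∑ W₂ : Finset α, wt p₁ W₁ * wt p₂ W₂ * f (W₁ ∪ W₂)) =
      ∑ ω₁ : α → Bool, ∑ ω₂ : α → Bool, wt p₁ (boolEquiv ω₁) * wt p₂ (boolEquiv ω₂) *
        f (boolEquiv ω₁ ∪ boolEquiv ω₂) := by
    rw [← (boolEquiv (α := α)).sum_comp]
    refine Finset.sum_congr rfl fun ω₁ _ => ?_
    rw [← (boolEquiv (α := α)).sum_comp]
  have r : (∑ Z : Finset α, wt (1 - (1 - p₁) * (1 - p₂)) Z * f Z) =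
      ∑ ω : α → Bool, wt (1 - (1 - p₁) * (1 - p₂)) (boolEquiv ω) * f (boolEquiv ω) := by
    rw [← (boolEquiv (α := α)).sum_comp]
  rw [l, r, e]

end Union

open Classical in
/-- `W` contains a member of the support of `ν`. -/
def Contains (ν : Finset α → ℝ) (W : Finset α) : Prop := ∃ S, ν S ≠ 0 ∧ S ⊆ W

open Classical in
/-- Probability of containing a member of the support. -/
noncomputable def Prob (ν : Finset α → ℝ) (s : ℝ) : ℝ :=
  ∑ W : Finset α, wt s W * if Contains ν W then 1 else 0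

/-- `q`-spread. -/
def Spread (q : ℝ) (ν : Finset α → ℝ) : Prop :=
  ∀ T : Finset α, ∑ S ∈ Finset.univ.filter (fun S => T ⊆ S), ν S ≤ q ^ T.card


section Fragments

/-- fragments of the support after removing `W` -/
def Frag (ν : Finset α → ℝ) (W : Finset α) : Set (Finset α) := {T | ∃ S, ν S ≠ 0 ∧ T = S \ W}

lemma exists_min_frag (ν : Finset α → ℝ) (W S : Finset α) (hS : ν S ≠ 0) :
    ∃ T, T ⊆ S \ W ∧ Minimal (· ∈ Frag ν W) T := by
  obtain ⟨b, hb, hm⟩ := exists_minimal_le_of_wellFoundedLT (· ∈ Frag ν W) (S \ W) ⟨S, hS, rfl⟩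
  exact ⟨b, hb, hm⟩

open Classical in
/-- chosen minimal fragment inside `S \ W` -/
noncomputable def tau (ν : Finset α → ℝ) (W S : Finset α) : Finset α :=
  if h : ν S ≠ 0 then Classical.choose (exists_min_frag ν W S h) else ∅

lemma tau_subset (ν : Finset α → ℝ) (W S : Finset α) (h : ν S ≠ 0) : tau ν W S ⊆ S \ W := by
  unfold tau; rw [dif_pos h]; exact (Classical.choose_spec (exists_min_frag ν W S h)).1

lemma tau_minimal (ν : Finset α → ℝ) (W S : Finset α) (h : ν S ≠ 0) :
    Minimal (· ∈ Frag ν W) (tau ν W S) := by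
  unfold tau; rw [dif_pos h]; exact (Classical.choose_spec (exists_min_frag ν W S h)).2

open Classical in
/-- minimal fragments -/
noncomputable def MinSet (ν : Finset α → ℝ) (W : Finset α) : Finset (Finset α) :=
  Finset.univ.filter (fun T => Minimal (· ∈ Frag ν W) T)

open Classical in
/-- push forward of `ν` to small fragments -/
noncomputable def push (ν : Finset α → ℝ) (l' : ℕ) (W T : Finset α) : ℝ :=
  ∑ S : Finset α, if ν S ≠ 0 ∧ tau ν W S = T ∧ T.card ≤ l' then ν S else 0

open Classical in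
/-- loss -/
noncomputable def Loss (ν : Finset α → ℝ) (l' : ℕ) (W : Finset α) : ℝ :=
  ∑ S : Finset α, if ν S ≠ 0 ∧ l' < (tau ν W S).card then ν S else 0

variable {ν : Finset α → ℝ}

lemma push_nonneg (hν : ∀ S, 0 ≤ ν S) (l' : ℕ) (W T : Finset α) : 0 ≤ push ν l' W T :=
  Finset.sum_nonneg fun S _ => by split_ifs <;> simp [hν]

lemma push_support {l' : ℕ} {W T : Finset α} (h : push ν l' W T ≠ 0) :
    T.card ≤ l' ∧ T ∈ Frag ν W := by
  classical
  unfold push at h
  obtain ⟨S, -, hS⟩ := Finset.exists_ne_zero_of_sum_ne_zero h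
  by_cases hc : ν S ≠ 0 ∧ tau ν W S = T ∧ T.card ≤ l'
  · refine ⟨hc.2.2, ?_⟩
    rw [← hc.2.1]
    exact (tau_minimal ν W S hc.1).prop
  · rw [if_neg hc] at hS; exact absurd rfl hS

lemma push_spread {q : ℝ} (hν : ∀ S, 0 ≤ ν S) (hs : Spread q ν) (l' : ℕ) (W : Finset α) :
    Spread q (push ν l' W) := by
  classical
  intro U
  refine le_trans ?_ (hs U)
  have h1 : (∑ T ∈ Finset.univ.filter (fun T => U ⊆ T), push ν l' W T) =
      ∑ S : Finset α, ∑ T ∈ Finset.univ.filter (fun T => U ⊆ T),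
        if ν S ≠ 0 ∧ tau ν W S = T ∧ T.card ≤ l' then ν S else 0 := by
    unfold push
    rw [Finset.sum_comm]
  have h2 : (∑ S ∈ Finset.univ.filter (fun S => U ⊆ S), ν S) =
      ∑ S : Finset α, if U ⊆ S then ν S else 0 := by
    rw [Finset.sum_filter]
  rw [h1, h2]
  refine Finset.sum_le_sum fun S _ => ?_
  by_cases hS : ν S ≠ 0
  · have hsub : tau ν W S ⊆ S := (tau_subset ν W S hS).trans Finset.sdiff_subset
    have hz : ∀ T ∈ Finset.univ.filter (fun T => U ⊆ T), T ≠ tau ν W S →
        (if ν S ≠ 0 ∧ tau ν W S = T ∧ T.card ≤ l' then ν S else 0) = 0 := by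
      intro T _ hT
      rw [if_neg]
      rintro ⟨_, h, _⟩
      exact hT h.symm
    by_cases hU : U ⊆ tau ν W S
    · have hUS : U ⊆ S := hU.trans hsub
      rw [if_pos hUS, Finset.sum_eq_single_of_mem (tau ν W S) (by simp [hU]) hz]
      split_ifs
      · exact le_rfl
      · exact hν S
    · rw [Finset.sum_eq_zero]
      · split_ifs
        · exact hν S
        · exact le_rfl
      · intro T hT
        by_cases hTS : T = tau ν W S
        · subst hTS
          simp only [Finset.mem_filter, Finset.mem_univ, true_and] at hT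
          exact absurd hT hU
        · exact hz T hT hTS
  · have hS' : ν S = 0 := by simpa using hS
    rw [Finset.sum_eq_zero]
    · split_ifs <;> simp [hS']
    · intro T _
      rw [if_neg]
      rintro ⟨h, _⟩
      exact h hS'

lemma push_sum (l' : ℕ) (W : Finset α) :
    (∑ T : Finset α, push ν l' W T) + Loss ν l' W = ∑ S : Finset α, ν S := by
  classical
  have h1 : (∑ T : Finset α, push ν l' W T) =
      ∑ S : Finset α, if ν S ≠ 0 ∧ (tau ν W S).card ≤ l' then ν S else 0 := by
    unfold push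
    rw [Finset.sum_comm]
    refine Finset.sum_congr rfl fun S _ => ?_
    rw [Finset.sum_eq_single (tau ν W S)]
    · simp
    · intro T _ hT
      rw [if_neg]
      rintro ⟨_, h, _⟩
      exact hT h.symm
    · simp
  rw [h1]
  unfold Loss
  rw [← Finset.sum_add_distrib]
  refine Finset.sum_congr rfl fun S _ => ?_
  by_cases hS : ν S = 0
  · simp [hS]
  · by_cases hc : (tau ν W S).card ≤ l'
    · have : ¬ l' < (tau ν W S).card := by omega
      simp [hS, hc, this]
    · have : l' < (tau ν W S).card := by omega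
      simp [hS, hc, this]

lemma mem_minSet_iff {W T : Finset α} : T ∈ MinSet ν W ↔ Minimal (· ∈ Frag ν W) T := by
  classical
  simp [MinSet]

open Classical in
/-- minimal fragments of size above `l'` -/
noncomputable def MinBig (ν : Finset α → ℝ) (l' : ℕ) (W : Finset α) : Finset (Finset α) :=
  (MinSet ν W).filter (fun T => l' < T.card)

lemma loss_le {q : ℝ} (hν : ∀ S, 0 ≤ ν S) (hs : Spread q ν) (l' : ℕ) (W : Finset α) :
    Loss ν l' W ≤ ∑ T ∈ MinBig ν l' W, q ^ T.card := by
  classical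
  have h1 : ∀ S : Finset α, (if ν S ≠ 0 ∧ l' < (tau ν W S).card then ν S else 0) ≤
      ∑ T ∈ MinBig ν l' W, if T ⊆ S then ν S else 0 := by
    intro S
    split_ifs with hc
    · have hT : tau ν W S ∈ MinBig ν l' W := by
        simp only [MinBig, Finset.mem_filter, mem_minSet_iff]
        exact ⟨tau_minimal ν W S hc.1, hc.2⟩
      have hsub : tau ν W S ⊆ S := (tau_subset ν W S hc.1).trans Finset.sdiff_subset
      calc ν S = if tau ν W S ⊆ S then ν S else 0 := by rw [if_pos hsub]
        _ ≤ _ := Finset.single_le_sum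
            (f := fun T => if T ⊆ S then ν S else 0)
            (fun T _ => by split_ifs <;> simp [hν]) hT
    · exact Finset.sum_nonneg fun T _ => by split_ifs <;> simp [hν]
  calc Loss ν l' W ≤ ∑ S : Finset α, ∑ T ∈ MinBig ν l' W, if T ⊆ S then ν S else 0 :=
        Finset.sum_le_sum fun S _ => h1 S
    _ = ∑ T ∈ MinBig ν l' W, ∑ S : Finset α, if T ⊆ S then ν S else 0 := by
        rw [Finset.sum_comm]
    _ ≤ _ := by
        refine Finset.sum_le_sum fun T _ => ?_
        have := hs T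
        rwa [Finset.sum_filter] at this

end Fragments

section Counting

variable {ν : Finset α → ℝ}

open Classical in
/-- canonical member of the support inside `Z` -/
noncomputable def canon (ν : Finset α → ℝ) (Z : Finset α) : Finset α :=
  if h : Contains ν Z then Classical.choose h else ∅

lemma canon_spec {Z : Finset α} (h : Contains ν Z) : ν (canon ν Z) ≠ 0 ∧ canon ν Z ⊆ Z := by
  classical
  unfold canon
  rw [dif_pos h]
  exact Classical.choose_spec h

lemma canon_card {ℓ : ℕ} (hsz : ∀ S, ν S ≠ 0 → S.card ≤ ℓ) (Z : Finset α) :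
    (canon ν Z).card ≤ ℓ := by
  classical
  by_cases h : Contains ν Z
  · exact hsz _ (canon_spec h).1
  · unfold canon; rw [dif_neg h]; simp

lemma minimal_frag_facts {W T : Finset α} (hT : Minimal (· ∈ Frag ν W) T) :
    Disjoint T W ∧ T ⊆ canon ν (W ∪ T) := by
  classical
  obtain ⟨⟨S, hS, rfl⟩, hmin⟩ := hT
  have hdis : Disjoint (S \ W) W := Finset.sdiff_disjoint
  refine ⟨hdis, ?_⟩
  have hc : Contains ν (W ∪ (S \ W)) := ⟨S, hS, by
    intro a ha
    by_cases haW : a ∈ W
    · exact Finset.mem_union_left _ haW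
    · exact Finset.mem_union_right _ (Finset.mem_sdiff.2 ⟨ha, haW⟩)⟩
  obtain ⟨h1, h2⟩ := canon_spec hc
  set S' := canon ν (W ∪ (S \ W)) with hS'
  have hfr : S' \ W ∈ Frag ν W := ⟨S', h1, rfl⟩
  have hle : S' \ W ≤ S \ W := by
    intro a ha
    obtain ⟨ha1, ha2⟩ := Finset.mem_sdiff.1 ha
    have := h2 ha1
    rcases Finset.mem_union.1 this with h | h
    · exact absurd h ha2
    · exact h
  have := hmin hfr hle
  intro a ha
  exact (Finset.mem_sdiff.1 (this ha)).1

lemma wt_step {p q : ℝ} (hp : 0 < p) (hp1 : p ≤ 1) (hq : 0 ≤ q) {W T : Finset α} (hd : Disjoint T W) :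
    wt p W * q ^ T.card ≤ wt p (W ∪ T) * (q / p) ^ T.card := by
  have hc : (W ∪ T).card = W.card + T.card := by
    rw [Finset.card_union_of_disjoint hd.symm]
  have hle : W.card + T.card ≤ Fintype.card α := by
    rw [← hc]; exact Finset.card_le_univ _
  rw [wt_eq, wt_eq, hc, div_pow]
  have hn : Fintype.card α - W.card = (Fintype.card α - (W.card + T.card)) + T.card := by omega
  rw [hn, pow_add (1 - p), pow_add p]
  have hp' : p ^ T.card ≠ 0 := pow_ne_zero _ hp.ne'
  have h1 : (1 - p) ^ T.card ≤ 1 := pow_le_one₀ (by linarith) (by linarith)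
  have h0 : 0 ≤ p ^ W.card * (1 - p) ^ (Fintype.card α - (W.card + T.card)) * q ^ T.card :=
    mul_nonneg (mul_nonneg (pow_nonneg hp.le _) (pow_nonneg (by linarith) _)) (pow_nonneg hq _)
  have e1 : p ^ W.card * ((1 - p) ^ (Fintype.card α - (W.card + T.card)) * (1 - p) ^ T.card) *
      q ^ T.card = (p ^ W.card * (1 - p) ^ (Fintype.card α - (W.card + T.card)) * q ^ T.card) *
        (1 - p) ^ T.card := by ring
  have e2 : p ^ W.card * p ^ T.card * (1 - p) ^ (Fintype.card α - (W.card + T.card)) *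
      (q ^ T.card / p ^ T.card) =
      (p ^ W.card * (1 - p) ^ (Fintype.card α - (W.card + T.card)) * q ^ T.card) := by
    field_simp
  rw [e1, e2]
  exact mul_le_of_le_one_right h0 h1

/-- The basic counting bound of Park–Pham. -/
lemma count_bound {p x : ℝ} (hp : 0 < p) (hp1 : p ≤ 1) (hx0 : 0 ≤ x) (hx1 : x ≤ 1) {ℓ l' : ℕ}
    (hsz : ∀ S, ν S ≠ 0 → S.card ≤ ℓ) :
    (∑ W : Finset α, ∑ T ∈ MinBig ν l' W, wt p (W ∪ T) * x ^ T.card) ≤
      2 ^ ℓ * x ^ (l' + 1) := by
  classical
  -- each pair (W,T) goes to (Z,T) with T ⊆ canon Z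
  have hstep : (∑ W : Finset α, ∑ T ∈ MinBig ν l' W, wt p (W ∪ T) * x ^ T.card) ≤
      ∑ Z : Finset α, ∑ T ∈ (canon ν Z).powerset.filter (fun T => l' < T.card),
        wt p Z * x ^ T.card := by
    rw [Finset.sum_sigma', Finset.sum_sigma']
    set A := (Finset.univ : Finset (Finset α)).sigma (fun W => MinBig ν l' W) with hA
    set B := (Finset.univ : Finset (Finset α)).sigma
      (fun Z => (canon ν Z).powerset.filter (fun T => l' < T.card)) with hB
    let g : (Σ _ : Finset α, Finset α) → (Σ _ : Finset α, Finset α) := fun y => ⟨y.1 ∪ y.2, y.2⟩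
    have hfact : ∀ y ∈ A, Disjoint y.2 y.1 ∧ y.2 ⊆ canon ν (y.1 ∪ y.2) ∧ l' < y.2.card := by
      intro y hy
      simp only [hA, Finset.mem_sigma, Finset.mem_univ, true_and, MinBig, Finset.mem_filter,
        mem_minSet_iff] at hy
      obtain ⟨h1, h2⟩ := minimal_frag_facts hy.1
      exact ⟨h1, h2, hy.2⟩
    have hinj : Set.InjOn g (A : Set (Σ _ : Finset α, Finset α)) := by
      rintro ⟨W₁, T₁⟩ h₁ ⟨W₂, T₂⟩ h₂ he
      have h1 := (hfact _ h₁).1
      have h2 := (hfact _ h₂).1
      simp only [g, Sigma.mk.injEq, heq_eq_eq] at he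
      obtain ⟨he1, rfl⟩ := he
      have : W₁ = W₂ := by
        simp only at h1 h2
        have e1 : W₁ = (W₁ ∪ T₁) \ T₁ := by
          rw [Finset.union_sdiff_cancel_right]; exact h1.symm
        have e2 : W₂ = (W₂ ∪ T₁) \ T₁ := by
          rw [Finset.union_sdiff_cancel_right]; exact h2.symm
        rw [e1, e2, he1]
      subst this
      rfl
    have hsub : A.image g ⊆ B := by
      intro z hz
      obtain ⟨y, hy, rfl⟩ := Finset.mem_image.1 hz
      obtain ⟨_, h2, h3⟩ := hfact y hy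
      simp only [hB, g, Finset.mem_sigma, Finset.mem_univ, true_and, Finset.mem_filter,
        Finset.mem_powerset]
      exact ⟨h2, h3⟩
    calc (∑ y ∈ A, wt p (y.1 ∪ y.2) * x ^ y.2.card)
        = ∑ z ∈ A.image g, wt p z.1 * x ^ z.2.card := by
          rw [Finset.sum_image hinj]
      _ ≤ _ := Finset.sum_le_sum_of_subset_of_nonneg hsub fun z _ _ =>
          mul_nonneg (wt_nonneg hp.le hp1 _) (pow_nonneg hx0 _)
  refine hstep.trans ?_
  have h2 : ∀ Z : Finset α, (∑ T ∈ (canon ν Z).powerset.filter (fun T => l' < T.card),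
      wt p Z * x ^ T.card) ≤ wt p Z * (2 ^ ℓ * x ^ (l' + 1)) := by
    intro Z
    have hw := wt_nonneg hp.le hp1 Z
    calc _ ≤ ∑ T ∈ (canon ν Z).powerset.filter (fun T => l' < T.card), wt p Z * x ^ (l' + 1) := by
          refine Finset.sum_le_sum fun T hT => ?_
          have hT' : l' + 1 ≤ T.card := (Finset.mem_filter.1 hT).2
          exact mul_le_mul_of_nonneg_left (pow_le_pow_of_le_one hx0 hx1 hT') hw
      _ = ((canon ν Z).powerset.filter (fun T => l' < T.card)).card * (wt p Z * x ^ (l' + 1)) := by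
          rw [Finset.sum_const, nsmul_eq_mul]
      _ ≤ (2 ^ ℓ : ℝ) * (wt p Z * x ^ (l' + 1)) := by
          refine mul_le_mul_of_nonneg_right ?_ (mul_nonneg hw (pow_nonneg hx0 _))
          have h3 : ((canon ν Z).powerset.filter (fun T => l' < T.card)).card ≤ 2 ^ ℓ := by
            refine (Finset.card_filter_le _ _).trans ?_
            rw [Finset.card_powerset]
            exact Nat.pow_le_pow_right (by norm_num) (canon_card hsz Z)
          exact_mod_cast h3
      _ = _ := by ring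
  calc _ ≤ ∑ Z : Finset α, wt p Z * (2 ^ ℓ * x ^ (l' + 1)) := Finset.sum_le_sum fun Z _ => h2 Z
    _ = 2 ^ ℓ * x ^ (l' + 1) := by
        rw [← Finset.sum_mul, sum_wt, one_mul]

/-- Expected loss in one round. -/
lemma expected_loss {p q : ℝ} (hp : 0 < p) (hp1 : p ≤ 1) (hq : 0 ≤ q) (hqp : 2048 * q ≤ p)
    (hν : ∀ S, 0 ≤ ν S) (hs : Spread q ν) {ℓ : ℕ} (hsz : ∀ S, ν S ≠ 0 → S.card ≤ ℓ) :
    (∑ W : Finset α, wt p W * Loss ν (ℓ / 2) W) ≤ (1 / 2) ^ ℓ / 32 := by
  classical
  set x := q / p with hx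
  have hx0 : 0 ≤ x := div_nonneg hq hp.le
  have hx2 : x ≤ 1 / 2048 := by
    rw [hx, div_le_iff₀ hp]; linarith
  have hx1 : x ≤ 1 := by linarith
  have h1 : ∀ W : Finset α, wt p W * Loss ν (ℓ / 2) W ≤
      ∑ T ∈ MinBig ν (ℓ / 2) W, wt p (W ∪ T) * x ^ T.card := by
    intro W
    calc wt p W * Loss ν (ℓ / 2) W
        ≤ wt p W * ∑ T ∈ MinBig ν (ℓ / 2) W, q ^ T.card :=
          mul_le_mul_of_nonneg_left (loss_le hν hs _ W) (wt_nonneg hp.le hp1 W)
      _ = ∑ T ∈ MinBig ν (ℓ / 2) W, wt p W * q ^ T.card := by rw [Finset.mul_sum]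
      _ ≤ _ := by
          refine Finset.sum_le_sum fun T hT => ?_
          simp only [MinBig, Finset.mem_filter, mem_minSet_iff] at hT
          exact wt_step hp hp1 hq (minimal_frag_facts hT.1).1
  refine (Finset.sum_le_sum fun W _ => h1 W).trans ((count_bound hp hp1 hx0 hx1 hsz).trans ?_)
  have h2 : x ^ (ℓ / 2 + 1) ≤ (1 / 2048 : ℝ) ^ (ℓ / 2 + 1) :=
    pow_le_pow_left₀ hx0 hx2 _
  have h3 : (2 : ℝ) ^ ℓ * (1 / 2048 : ℝ) ^ (ℓ / 2 + 1) ≤ (1 / 2) ^ ℓ / 32 := by
    have e : (1 / 2048 : ℝ) = (1 / 2) ^ 11 := by norm_num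
    rw [e, ← pow_mul]
    have hle : 2 * ℓ + 5 ≤ 11 * (ℓ / 2 + 1) := by omega
    have h4 : ((1 : ℝ) / 2) ^ (11 * (ℓ / 2 + 1)) ≤ (1 / 2) ^ (2 * ℓ + 5) :=
      pow_le_pow_of_le_one (by norm_num) (by norm_num) hle
    have h5 : (2 : ℝ) ^ ℓ * ((1 : ℝ) / 2) ^ (2 * ℓ + 5) = (1 / 2) ^ ℓ / 32 := by
      have e3 : (2 : ℝ) ^ ℓ * ((1 / 2 : ℝ) ^ ℓ) = 1 := by
        rw [← mul_pow]; norm_num
      have e4 : ((1 : ℝ) / 2) ^ (2 * ℓ + 5) = (1 / 2) ^ ℓ * (1 / 2) ^ ℓ * (1 / 32) := by
        rw [pow_add, two_mul, pow_add]; norm_num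
      rw [e4]
      calc (2 : ℝ) ^ ℓ * ((1 / 2) ^ ℓ * (1 / 2) ^ ℓ * (1 / 32))
          = ((2 : ℝ) ^ ℓ * (1 / 2) ^ ℓ) * ((1 / 2) ^ ℓ * (1 / 32)) := by ring
        _ = _ := by rw [e3]; ring
    calc _ ≤ (2 : ℝ) ^ ℓ * ((1 : ℝ) / 2) ^ (2 * ℓ + 5) := by
          rw [mul_comm (11 : ℕ)] at h4
          exact mul_le_mul_of_nonneg_left (by simpa [mul_comm] using h4) (by positivity)
      _ = _ := h5
  calc _ ≤ (2 : ℝ) ^ ℓ * (1 / 2048 : ℝ) ^ (ℓ / 2 + 1) :=
        mul_le_mul_of_nonneg_left h2 (by positivity)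
    _ ≤ _ := h3

lemma contains_of_push {l' : ℕ} {W W' : Finset α} (h : Contains (push ν l' W) W') :
    Contains ν (W ∪ W') := by
  obtain ⟨T, hT, hTW⟩ := h
  obtain ⟨_, S, hS, rfl⟩ := push_support hT
  refine ⟨S, hS, fun a ha => ?_⟩
  by_cases haW : a ∈ W
  · exact Finset.mem_union_left _ haW
  · exact Finset.mem_union_right _ (hTW (Finset.mem_sdiff.2 ⟨ha, haW⟩))

/-- error budget -/
noncomputable def eps (ℓ : ℕ) : ℝ := (1 / 32) * (1 - (1 / 2) ^ ℓ)

lemma eps_step {ℓ : ℕ} (h : ℓ ≠ 0) : eps (ℓ / 2) + (1 / 2) ^ ℓ / 32 ≤ eps ℓ := by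
  unfold eps
  have hle : ℓ / 2 + 1 ≤ ℓ := by omega
  have h4 : ((1 : ℝ) / 2) ^ ℓ ≤ (1 / 2) ^ (ℓ / 2 + 1) :=
    pow_le_pow_of_le_one (by norm_num) (by norm_num) hle
  rw [pow_succ] at h4
  nlinarith

lemma prob_nonneg {s : ℝ} (h0 : 0 ≤ s) (h1 : s ≤ 1) : 0 ≤ Prob ν s := by
  classical
  unfold Prob
  refine Finset.sum_nonneg fun W _ => mul_nonneg (wt_nonneg h0 h1 W) ?_
  split_ifs <;> norm_num

lemma base_case {s : ℝ} (h0 : 0 ≤ s) (h1 : s ≤ 1) {q : ℝ}
    (hs : Spread q ν) (hsz : ∀ S, ν S ≠ 0 → S.card ≤ 0) :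
    (∑ S : Finset α, ν S) - eps 0 ≤ Prob ν s := by
  classical
  have e0 : eps 0 = 0 := by simp [eps]
  rw [e0, sub_zero]
  by_cases hz : ν ∅ = 0
  · have : ∑ S : Finset α, ν S = 0 := by
      refine Finset.sum_eq_zero fun S _ => ?_
      by_contra hS
      have := hsz S hS
      have hS' : S = ∅ := Finset.card_eq_zero.1 (by omega)
      subst hS'
      exact hS hz
    rw [this]
    exact prob_nonneg h0 h1
  · have h2 : Prob ν s = 1 := by
      unfold Prob
      have : ∀ W : Finset α, Contains ν W := fun W => ⟨∅, hz, Finset.empty_subset _⟩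
      simp only [this, if_true, mul_one]
      exact sum_wt s
    rw [h2]
    have := hs ∅
    simpa using this

theorem core {q p : ℝ} (hq : 0 ≤ q) (hp : 0 < p) (hp1 : p ≤ 1) (hqp : 2048 * q ≤ p) (r : ℕ) :
    ∀ (ℓ : ℕ) (ν : Finset α → ℝ), ℓ < 2 ^ r → (∀ S, 0 ≤ ν S) → (∀ S, ν S ≠ 0 → S.card ≤ ℓ) →
      Spread q ν → (∑ S : Finset α, ν S) - eps ℓ ≤ Prob ν (1 - (1 - p) ^ r) := by
  classical
  have hs0 : ∀ r : ℕ, 0 ≤ 1 - (1 - p) ^ r := fun r => by
    have := pow_le_one₀ (n := r) (by linarith : 0 ≤ 1 - p) (by linarith : 1 - p ≤ 1)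
    linarith
  have hs1 : ∀ r : ℕ, 1 - (1 - p) ^ r ≤ 1 := fun r => by
    have := pow_nonneg (by linarith : 0 ≤ 1 - p) r
    linarith
  induction r with
  | zero =>
    intro ℓ ν hℓ hν hsz hs
    have : ℓ = 0 := by simpa using hℓ
    subst this
    exact base_case (hs0 0) (hs1 0) hs hsz
  | succ r ih =>
    intro ℓ ν hℓ hν hsz hs
    by_cases hℓ0 : ℓ = 0
    · subst hℓ0
      exact base_case (hs0 _) (hs1 _) hs hsz
    · set s' := 1 - (1 - p) ^ r with hs'
      have hsplit : (1 : ℝ) - (1 - p) ^ (r + 1) = 1 - (1 - p) * (1 - s') := by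
        rw [hs', pow_succ]; ring
      have hunion := union_wt (α := α) p s' (fun Z => if Contains ν Z then 1 else 0)
      have hprob : Prob ν (1 - (1 - p) ^ (r + 1)) =
          ∑ W : Finset α, ∑ W' : Finset α, wt p W * wt s' W' *
            (if Contains ν (W ∪ W') then 1 else 0) := by
        rw [hunion, hsplit]; rfl
      have hlow : ∀ W : Finset α, wt p W * ((∑ S : Finset α, ν S) - Loss ν (ℓ / 2) W - eps (ℓ / 2)) ≤
          ∑ W' : Finset α, wt p W * wt s' W' * (if Contains ν (W ∪ W') then 1 else 0) := by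
        intro W
        have hW := wt_nonneg hp.le hp1 W
        have hih := ih (ℓ / 2) (push ν (ℓ / 2) W)
          (by rw [pow_succ] at hℓ; omega)
          (push_nonneg hν _ W)
          (fun T hT => (push_support hT).1)
          (push_spread hν hs _ W)
        have hsum := push_sum (ν := ν) (ℓ / 2) W
        have h3 : Prob (push ν (ℓ / 2) W) s' ≤ ∑ W' : Finset α, wt s' W' *
            (if Contains ν (W ∪ W') then 1 else 0) := by
          unfold Prob
          refine Finset.sum_le_sum fun W' _ => mul_le_mul_of_nonneg_left ?_ (wt_nonneg (hs0 r) (hs1 r) W')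
          by_cases hc : Contains (push ν (ℓ / 2) W) W'
          · rw [if_pos hc, if_pos (contains_of_push hc)]
          · rw [if_neg hc]; split_ifs <;> norm_num
        calc _ ≤ wt p W * ∑ W' : Finset α, wt s' W' * (if Contains ν (W ∪ W') then 1 else 0) :=
              mul_le_mul_of_nonneg_left (by linarith) hW
          _ = _ := by
              rw [Finset.mul_sum]
              refine Finset.sum_congr rfl fun W' _ => ?_
              ring
      rw [hprob]
      have hsumW := Finset.sum_le_sum (s := Finset.univ) fun W _ => hlow W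
      refine le_trans ?_ hsumW
      have e1 : (∑ W : Finset α, wt p W * ((∑ S : Finset α, ν S) - Loss ν (ℓ / 2) W - eps (ℓ / 2))) =
          (∑ S : Finset α, ν S) - eps (ℓ / 2) - ∑ W : Finset α, wt p W * Loss ν (ℓ / 2) W := by
        have : ∀ W : Finset α, wt p W * ((∑ S : Finset α, ν S) - Loss ν (ℓ / 2) W - eps (ℓ / 2)) =
            wt p W * ((∑ S : Finset α, ν S) - eps (ℓ / 2)) - wt p W * Loss ν (ℓ / 2) W := by
          intro W; ring
        simp only [this]
        rw [Finset.sum_sub_distrib, ← Finset.sum_mul, sum_wt, one_mul]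
      rw [e1]
      have h5 := expected_loss hp hp1 hq hqp hν hs hsz
      have h6 := eps_step hℓ0
      linarith

lemma prob_mono {s s' : ℝ} (h0 : 0 ≤ s) (hss : s ≤ s') (h1 : s' ≤ 1) : Prob ν s ≤ Prob ν s' := by
  classical
  by_cases hs1 : s = 1
  · have : s' = 1 := by linarith
    rw [hs1, this]
  have hlt : 0 < 1 - s := by
    have : s < 1 := lt_of_le_of_ne (by linarith) hs1
    linarith
  set u := (s' - s) / (1 - s) with hu
  have hu0 : 0 ≤ u := div_nonneg (by linarith) hlt.le
  have hu1 : u ≤ 1 := by rw [hu, div_le_one hlt]; linarith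
  have he : s' = 1 - (1 - s) * (1 - u) := by
    rw [hu]; field_simp; ring
  have hunion := union_wt (α := α) s u (fun Z => if Contains ν Z then 1 else 0)
  have : Prob ν s' = ∑ W : Finset α, ∑ W' : Finset α, wt s W * wt u W' *
      (if Contains ν (W ∪ W') then 1 else 0) := by
    rw [hunion, he]; rfl
  rw [this]
  unfold Prob
  refine Finset.sum_le_sum fun W _ => ?_
  have hw := wt_nonneg h0 (by linarith) W
  calc wt s W * (if Contains ν W then 1 else 0)
      = ∑ W' : Finset α, wt s W * wt u W' * (if Contains ν W then (1 : ℝ) else 0) := by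
        simp only [mul_comm (wt s W), mul_assoc]
        rw [← Finset.sum_mul, sum_wt, one_mul]
    _ ≤ _ := by
        refine Finset.sum_le_sum fun W' _ => ?_
        refine mul_le_mul_of_nonneg_left ?_ (mul_nonneg hw (wt_nonneg hu0 hu1 W'))
        by_cases hc : Contains ν W
        · obtain ⟨S, hS, hSW⟩ := hc
          have hc' : Contains ν W := ⟨S, hS, hSW⟩
          have hc2 : Contains ν (W ∪ W') := ⟨S, hS, hSW.trans Finset.subset_union_left⟩
          rw [if_pos hc', if_pos hc2]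
        · rw [if_neg hc]; split_ifs <;> norm_num

/-- Park–Pham, in the weighted form used here. -/
theorem main {q : ℝ} (hq : 0 < q) (h : ℕ) (hν : ∀ S, 0 ≤ ν S) (hsz : ∀ S, ν S ≠ 0 → S.card ≤ h)
    (hs : Spread q ν) {s : ℝ} (hs1 : s ≤ 1)
    (hss : 2048 * q * ((Nat.log 2 h + 1 : ℕ) : ℝ) ≤ s) :
    (∑ S : Finset α, ν S) - 1 / 32 ≤ Prob ν s := by
  classical
  set r := Nat.log 2 h + 1 with hr
  set p := 2048 * q with hp
  have hp0 : 0 < p := by positivity
  have hrpos : (1 : ℝ) ≤ (r : ℝ) := by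
    rw [hr]; push_cast; linarith [(Nat.cast_nonneg (Nat.log 2 h) : (0 : ℝ) ≤ _)]
  have hp1 : p ≤ 1 := by
    have : p * 1 ≤ p * r := mul_le_mul_of_nonneg_left hrpos hp0.le
    linarith
  have hc := core hq.le hp0 hp1 le_rfl r h ν (Nat.lt_pow_succ_log_self (by norm_num) h) hν hsz hs
  have hb : 1 - (1 - p) ^ r ≤ s := by
    have := one_add_mul_le_pow (a := -p) (by linarith) r
    have e : (1 : ℝ) + -p = 1 - p := by ring
    rw [e] at this
    nlinarith
  have h0 : 0 ≤ 1 - (1 - p) ^ r := by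
    have := pow_le_one₀ (n := r) (by linarith : 0 ≤ 1 - p) (by linarith : 1 - p ≤ 1)
    linarith
  have hm := prob_mono (ν := ν) h0 hb hs1
  have he : eps h ≤ 1 / 32 := by
    unfold eps
    have : (0 : ℝ) ≤ (1 / 2) ^ h := by positivity
    linarith
  linarith

end Counting

end Crest.Agent.Lib.SpreadPP
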