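import Crest.Agent.Lib.SpreadPP.Glue

/-!
# The folding inequality for `AutBound`

If `g : X → W` runs over maps of a fixed abstract graph `G` onto a fixed graph `U` (surjective on
vertices and with image graph exactly `U`), two such maps differ by an automorphism of `U` after
labelling.  Hence the number of such maps times `(n)_{|W|}` is at most `|Aut U| n^{|X|}`, and with
`AutBound` it is at most `2 n^{|X|} p^{e(U)}`: vertices may collide freely, only distinct edges count.
-/

set_option autoImplicit false

open Finset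

namespace Crest.Agent.Lib.SpreadPP

section Fold

variable {X W : Type} [Fintype X] [DecidableEq X] [Fintype W] [DecidableEq W]

/-- `g` maps `G` onto `U`: surjective on vertices, image graph exactly `U`. -/
def MapsOnto (G : SimpleGraph X) (U : SimpleGraph W) (g : X → W) : Prop :=
  Function.Surjective g ∧ ∀ a b, U.Adj a b ↔ ∃ x y, g x = a ∧ g y = b ∧ G.Adj x y

omit [Fintype X] [DecidableEq X] [Fintype W] [DecidableEq W] in
/-- Two labelled maps onto `U` with the same labelled image differ by an automorphism of `U`. -/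
lemma exists_iso_of_comp_eq {G : SimpleGraph X} {U : SimpleGraph W} {g g' : X → W}
    (hg : MapsOnto G U g) (hg' : MapsOnto G U g') {n : ℕ} (i i' : W ↪ Fin n)
    (h : ∀ x, i (g x) = i' (g' x)) : ∃ σ : U ≃g U, ∀ x, σ (g x) = g' x := by
  classical
  -- fibres of `g` and `g'` agree
  have hfib : ∀ x y, g x = g y ↔ g' x = g' y := by
    intro x y
    constructor
    · intro e
      apply i'.injective
      rw [← h x, ← h y, e]
    · intro e
      apply i.injective
      rw [h x, h y, e]
  let s : W → X := Function.surjInv hg.1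
  let s' : W → X := Function.surjInv hg'.1
  have hs : ∀ a, g (s a) = a := Function.surjInv_eq hg.1
  have hs' : ∀ a, g' (s' a) = a := Function.surjInv_eq hg'.1
  let σ : W → W := fun a => g' (s a)
  let τ : W → W := fun a => g (s' a)
  have hσ : ∀ x, σ (g x) = g' x := by
    intro x
    exact (hfib _ _).1 (hs (g x))
  have hτ : ∀ x, τ (g' x) = g x := by
    intro x
    exact (hfib _ _).2 (hs' (g' x))
  have hl : Function.LeftInverse τ σ := by
    intro a
    show τ (g' (s a)) = a
    rw [hτ, hs]
  have hr : Function.RightInverse τ σ := by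
    intro a
    show σ (g (s' a)) = a
    rw [hσ, hs']
  refine ⟨⟨⟨σ, τ, hl, hr⟩, ?_⟩, hσ⟩
  intro a b
  show U.Adj (σ a) (σ b) ↔ U.Adj a b
  constructor
  · intro hab
    obtain ⟨x, y, hx, hy, hxy⟩ := (hg'.2 _ _).1 hab
    have h1 : g x = a := by
      have : σ (g x) = σ a := by rw [hσ, hx]
      have h2 := congrArg τ this
      rwa [hl, hl] at h2
    have h2 : g y = b := by
      have : σ (g y) = σ b := by rw [hσ, hy]
      have h3 := congrArg τ this
      rwa [hl, hl] at h3
    exact (hg.2 _ _).2 ⟨x, y, h1, h2, hxy⟩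
  · intro hab
    obtain ⟨x, y, hx, hy, hxy⟩ := (hg.2 _ _).1 hab
    refine (hg'.2 _ _).2 ⟨x, y, ?_, ?_, hxy⟩
    · rw [← hσ, hx]
    · rw [← hσ, hy]

/-- Counting form of the folding inequality. -/
theorem card_onto_mul_descFactorial_le (n : ℕ) (G : SimpleGraph X) (U : SimpleGraph W)
    (S : Finset (X → W)) (hS : ∀ g ∈ S, MapsOnto G U g) :
    S.card * n.descFactorial (Fintype.card W) ≤ Nat.card (U ≃g U) * n ^ Fintype.card X := by
  classical
  have : Finite (U ≃g U) := by
    refine Finite.of_injective (fun f : U ≃g U => (f : W → W)) ?_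
    intro f f' h
    ext x
    exact congrFun h x
  letI : Fintype (U ≃g U) := Fintype.ofFinite _
  let D : Finset ((W ↪ Fin n) × (X → W)) := (Finset.univ : Finset (W ↪ Fin n)) ×ˢ S
  let Φ : (W ↪ Fin n) × (X → W) → (X → Fin n) := fun q x => q.1 (q.2 x)
  have hD : D.card = S.card * n.descFactorial (Fintype.card W) := by
    simp only [D, Finset.card_product, Finset.card_univ, Fintype.card_embedding_eq,
      Fintype.card_fin]
    exact Nat.mul_comm _ _
  have hfib : ∀ h ∈ (Finset.univ : Finset (X → Fin n)),
      (D.filter fun q => Φ q = h).card ≤ Nat.card (U ≃g U) := by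
    intro h _
    by_cases hne : (D.filter fun q => Φ q = h).Nonempty
    · obtain ⟨q₀, hq₀⟩ := hne
      obtain ⟨hq₀D, hq₀h⟩ := Finset.mem_filter.1 hq₀
      have hq₀S : q₀.2 ∈ S := (Finset.mem_product.1 hq₀D).2
      have hex : ∀ q ∈ D.filter (fun q => Φ q = h),
          ∃ σ : U ≃g U, ∀ x, σ (q₀.2 x) = q.2 x := by
        intro q hq
        obtain ⟨hqD, hqh⟩ := Finset.mem_filter.1 hq
        have hqS : q.2 ∈ S := (Finset.mem_product.1 hqD).2
        refine exists_iso_of_comp_eq (hS _ hq₀S) (hS _ hqS) q₀.1 q.1 ?_
        intro x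
        have h1 := congrFun hq₀h x
        have h2 := congrFun hqh x
        exact h1.trans h2.symm
      let pick : (W ↪ Fin n) × (X → W) → (U ≃g U) := fun q =>
        if hq : q ∈ D.filter (fun q => Φ q = h) then Classical.choose (hex q hq)
        else SimpleGraph.Iso.refl
      have hpick : ∀ q (hq : q ∈ D.filter (fun q => Φ q = h)) x, pick q (q₀.2 x) = q.2 x := by
        intro q hq x
        have e : pick q = Classical.choose (hex q hq) := dif_pos hq
        rw [e]
        exact Classical.choose_spec (hex q hq) x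
      rw [Nat.card_eq_fintype_card, ← Finset.card_univ]
      refine Finset.card_le_card_of_injOn pick (fun _ _ => Finset.mem_univ _) ?_
      intro q hq q' hq' hpq
      have hq1 : q ∈ D.filter (fun q => Φ q = h) := hq
      have hq1' : q' ∈ D.filter (fun q => Φ q = h) := hq'
      have h2 : q.2 = q'.2 := by
        funext x
        rw [← hpick q hq1 x, ← hpick q' hq1' x, hpq]
      have hqS : q.2 ∈ S := (Finset.mem_product.1 (Finset.mem_filter.1 hq1).1).2
      have h1 : q.1 = q'.1 := by
        ext a
        obtain ⟨x, rfl⟩ := (hS _ hqS).1 a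
        have e1 := congrFun (Finset.mem_filter.1 hq1).2 x
        have e2 := congrFun (Finset.mem_filter.1 hq1').2 x
        simp only [Φ] at e1 e2
        rw [e1, h2, e2]
      exact Prod.ext h1 h2
    · rw [Finset.not_nonempty_iff_eq_empty.1 hne]
      simp
  have hmain := Finset.card_le_mul_card_image_of_maps_to (s := D)
    (t := (Finset.univ : Finset (X → Fin n))) (f := Φ) (fun _ _ => Finset.mem_univ _)
    (Nat.card (U ≃g U)) hfib
  rw [hD] at hmain
  simpa [Finset.card_univ, Fintype.card_fun] using hmain

/-- The folding inequality: at most `2 n^{|X|} p^{e(U)}` maps of `G` onto a subgraph `U` of `H`. -/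
theorem card_onto_le_of_autBound {n : ℕ} {V : Type} {H : SimpleGraph V} {p : ℝ}
    (hA : AutBound n H p) (G : SimpleGraph X) (U : SimpleGraph W) (hU : U.IsContained H)
    (hW : Fintype.card W ≤ n) (S : Finset (X → W)) (hS : ∀ g ∈ S, MapsOnto G U g) :
    (S.card : ℝ) ≤ 2 * (n : ℝ) ^ Fintype.card X * p ^ U.edgeSet.ncard := by
  have h1 := card_onto_mul_descFactorial_le n G U S hS
  have h2 := hA W U hU
  have hD : (0 : ℝ) < n.descFactorial (Fintype.card W) := by
    exact_mod_cast Nat.descFactorial_pos.2 hW
  have h3 : ((S.card * n.descFactorial (Fintype.card W) : ℕ) : ℝ) ≤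
      ((Nat.card (U ≃g U) * n ^ Fintype.card X : ℕ) : ℝ) := by exact_mod_cast h1
  push_cast at h3
  have h4 : (S.card : ℝ) * n.descFactorial (Fintype.card W) ≤
      (2 * (n.descFactorial (Fintype.card W)) * p ^ U.edgeSet.ncard) * (n : ℝ) ^ Fintype.card X :=
    h3.trans (mul_le_mul_of_nonneg_right h2 (by positivity))
  have h5 : (S.card : ℝ) * n.descFactorial (Fintype.card W) ≤
      (2 * (n : ℝ) ^ Fintype.card X * p ^ U.edgeSet.ncard) * n.descFactorial (Fintype.card W) := by
    linarith
  exact le_of_mul_le_mul_right h5 hD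

end Fold

end Crest.Agent.Lib.SpreadPP
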