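import Crest.Prelude.Def_FinProb
import Crest.Prelude.Def_RandomGraph
import Crest.Agent.Lib.SpreadPP.Core

/-!
# From a spread bound for random embeddings to the containment probability

`slots H σ` is the edge set of the copy of `H` given by the embedding `σ`.  If for every set `T`
of edge slots the number of embeddings whose copy contains `T` is at most `q ^ |T|` times the
number of all embeddings, then at edge density `2048 * q * (1 + log₂ e(H))` the random graph
contains `H` with probability at least `1/2`.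
-/

set_option autoImplicit false

open Finset
open Crest.CombinatoricsR.RandomGraph

namespace Crest.Agent.Lib.SpreadPP

variable {n : ℕ} {V : Type} [Fintype V] [DecidableEq V]

/-- Edge slots of the copy of `H` under `σ`. -/
noncomputable def slots (H : SimpleGraph V) [DecidableRel H.Adj] (σ : V ↪ Fin n) :
    Finset (EdgeSlot n) :=
  open Classical in Finset.univ.filter fun z => ∃ e ∈ H.edgeFinset, Sym2.map σ e = z.1

lemma mem_slots {H : SimpleGraph V} [DecidableRel H.Adj] {σ : V ↪ Fin n} {z : EdgeSlot n} :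
    z ∈ slots H σ ↔ ∃ e ∈ H.edgeFinset, Sym2.map σ e = z.1 := by
  classical
  simp [slots]

lemma card_slots_le (H : SimpleGraph V) [DecidableRel H.Adj] (σ : V ↪ Fin n) :
    (slots H σ).card ≤ H.edgeFinset.card := by
  classical
  have h1 : (slots H σ).card = ((slots H σ).image Subtype.val).card :=
    (Finset.card_image_of_injective _ Subtype.val_injective).symm
  rw [h1]
  refine (Finset.card_le_card ?_).trans (Finset.card_image_le (f := Sym2.map σ))
  intro z hz
  obtain ⟨y, hy, rfl⟩ := Finset.mem_image.1 hz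
  obtain ⟨e, he, hee⟩ := mem_slots.1 hy
  exact Finset.mem_image.2 ⟨e, he, hee⟩

/-- The weight on edge sets: the law of the copy of `H` under a uniform embedding. -/
noncomputable def copyLaw (H : SimpleGraph V) [DecidableRel H.Adj] (S : Finset (EdgeSlot n)) : ℝ :=
  open Classical in
  ((Finset.univ.filter fun σ : V ↪ Fin n => slots H σ = S).card : ℝ) /
    (Fintype.card (V ↪ Fin n) : ℝ)

lemma copyLaw_nonneg (H : SimpleGraph V) [DecidableRel H.Adj] (S : Finset (EdgeSlot n)) :
    0 ≤ copyLaw H S := by
  unfold copyLaw; positivity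

lemma card_emb_pos (hV : Fintype.card V ≤ n) : 0 < Fintype.card (V ↪ Fin n) := by
  have : Nonempty (V ↪ Fin n) :=
    Function.Embedding.nonempty_of_card_le (by simpa using hV)
  exact Fintype.card_pos

lemma copyLaw_sum_filter (H : SimpleGraph V) [DecidableRel H.Adj] (P : Finset (EdgeSlot n) → Prop)
    [DecidablePred P] :
    (∑ S ∈ Finset.univ.filter P, copyLaw H S) =
      (open Classical in ((Finset.univ.filter fun σ : V ↪ Fin n => P (slots H σ)).card : ℝ)) /
        (Fintype.card (V ↪ Fin n) : ℝ) := by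
  classical
  unfold copyLaw
  rw [← Finset.sum_div]
  congr 1
  rw [← Nat.cast_sum, ← Finset.card_biUnion]
  · congr 2
    ext σ
    simp
  · intro a _ b _ hab
    refine Finset.disjoint_left.2 fun σ h1 h2 => hab ?_
    simp only [Finset.mem_filter, Finset.mem_univ, true_and] at h1 h2
    rw [← h1, h2]

lemma copyLaw_sum (H : SimpleGraph V) [DecidableRel H.Adj] (hV : Fintype.card V ≤ n) :
    (∑ S : Finset (EdgeSlot n), copyLaw H S) = 1 := by
  classical
  have h := copyLaw_sum_filter H (n := n) (fun _ => True)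
  simp only [Finset.filter_true] at h
  rw [h, Finset.card_univ]
  exact div_self (by exact_mod_cast (card_emb_pos hV).ne')

lemma copyLaw_size (H : SimpleGraph V) [DecidableRel H.Adj] (S : Finset (EdgeSlot n))
    (hS : copyLaw H S ≠ 0) : S.card ≤ H.edgeFinset.card := by
  classical
  unfold copyLaw at hS
  have h1 : (Finset.univ.filter fun σ : V ↪ Fin n => slots H σ = S).card ≠ 0 := by
    intro h0
    rw [h0] at hS
    simp at hS
  obtain ⟨σ, hσ⟩ := Finset.card_pos.1 (Nat.pos_of_ne_zero h1)
  have : slots H σ = S := by simpa using hσ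
  rw [← this]
  exact card_slots_le H σ

lemma copyLaw_exists (H : SimpleGraph V) [DecidableRel H.Adj] (S : Finset (EdgeSlot n))
    (hS : copyLaw H S ≠ 0) : ∃ σ : V ↪ Fin n, slots H σ = S := by
  classical
  unfold copyLaw at hS
  have h1 : (Finset.univ.filter fun σ : V ↪ Fin n => slots H σ = S).card ≠ 0 := by
    intro h0
    rw [h0] at hS
    simp at hS
  obtain ⟨σ, hσ⟩ := Finset.card_pos.1 (Nat.pos_of_ne_zero h1)
  exact ⟨σ, by simpa using hσ⟩

lemma isContained_of_slots (H : SimpleGraph V) [DecidableRel H.Adj] (σ : V ↪ Fin n)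
    (ω : EdgeSlot n → Bool) (h : slots H σ ⊆ boolEquiv ω) : H.IsContained (graphOf ω) := by
  classical
  refine ⟨⟨⟨σ, ?_⟩, σ.injective⟩⟩
  intro a b hab
  have hne : σ a ≠ σ b := fun he => hab.ne (σ.injective he)
  have hd : ¬ (s(σ a, σ b)).IsDiag := by simpa using hne
  have hz : (⟨s(σ a, σ b), hd⟩ : EdgeSlot n) ∈ slots H σ := by
    refine mem_slots.2 ⟨s(a, b), ?_, by simp⟩
    simpa using hab
  have := (boolEquiv_apply_mem ω _).1 (h hz)
  unfold graphOf
  rw [SimpleGraph.fromEdgeSet_adj]
  exact ⟨⟨hd, this⟩, hne⟩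

lemma gnpProb_ge (H : SimpleGraph V) [DecidableRel H.Adj] (s : ℝ) (h0 : 0 ≤ s) (h1 : s ≤ 1) :
    Prob (copyLaw H (n := n)) s ≤ gnpProb n s {G | H.IsContained G} := by
  classical
  unfold gnpProb Crest.FinProb.bernoulliProb Prob
  have hweight : ∀ ω : EdgeSlot n → Bool, Crest.FinProb.bernoulliWeight s ω = wt s (boolEquiv ω) := by
    intro ω
    unfold Crest.FinProb.bernoulliWeight wt
    refine Finset.prod_congr rfl fun a _ => ?_
    simp only [boolEquiv_apply_mem]
  rw [← (boolEquiv (α := EdgeSlot n)).sum_comp]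
  rw [Finset.sum_filter]
  refine Finset.sum_le_sum fun ω _ => ?_
  rw [hweight]
  have hw := wt_nonneg h0 h1 (boolEquiv ω)
  by_cases hc : Contains (copyLaw H (n := n)) (boolEquiv ω)
  · obtain ⟨S, hS, hSW⟩ := id hc
    obtain ⟨σ, rfl⟩ := copyLaw_exists H S hS
    have hm : ω ∈ {ω | graphOf ω ∈ {G | H.IsContained G}} := isContained_of_slots H σ ω hSW
    rw [if_pos hc, if_pos hm]
    simp
  · rw [if_neg hc, mul_zero]
    split_ifs
    · exact hw
    · exact le_rfl

/-- Reduction of the second Kahn–Kalai statement to the spread bound for embeddings. -/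
theorem half_le_of_spread (H : SimpleGraph V) [DecidableRel H.Adj]
    (hV : Fintype.card V ≤ n) (hH : 1 ≤ H.edgeFinset.card) (c p : ℝ) (hc : 1 ≤ c) (hp : 0 < p)
    (hT : 2048 * c * p * (1 + Real.logb 2 (H.edgeFinset.card : ℝ)) < 1 →
      ∀ T : Finset (EdgeSlot n),
        (open Classical in ((Finset.univ.filter fun σ : V ↪ Fin n => T ⊆ slots H σ).card : ℝ)) ≤
          (c * p) ^ T.card * (Fintype.card (V ↪ Fin n) : ℝ)) :
    (1 : ℝ) / 2 ≤ gnpProb n
      (min 1 (2048 * c * p * (1 + Real.logb 2 (H.edgeFinset.card : ℝ)))) {G | H.IsContained G} := by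
  classical
  set h := H.edgeFinset.card with hh
  have hlog : (0 : ℝ) ≤ Real.logb 2 (h : ℝ) :=
    Real.logb_nonneg (by norm_num) (by exact_mod_cast hH)
  have hcp : 0 < c * p := mul_pos (by linarith) hp
  have hE0 : 0 < 2048 * c * p * (1 + Real.logb 2 (h : ℝ)) := by positivity
  have hsum := copyLaw_sum H (n := n) hV
  by_cases hsmall : 2048 * c * p * (1 + Real.logb 2 (h : ℝ)) < 1
  · rw [min_eq_right hsmall.le]
    set s := 2048 * c * p * (1 + Real.logb 2 (h : ℝ)) with hs
    have hq : Spread (c * p) (copyLaw H (n := n)) := by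
      intro T
      have hem : (0 : ℝ) < Fintype.card (V ↪ Fin n) := by exact_mod_cast card_emb_pos hV
      rw [copyLaw_sum_filter H (fun S => T ⊆ S), div_le_iff₀ hem]
      exact hT hsmall T
    have hr : ((Nat.log 2 h + 1 : ℕ) : ℝ) ≤ 1 + Real.logb 2 (h : ℝ) := by
      have := Real.natLog_le_logb h 2
      push_cast at this ⊢
      linarith
    have hmain := main (ν := copyLaw H (n := n)) hcp h (copyLaw_nonneg H) (copyLaw_size H) hq
      (s := s) hsmall.le (by
        rw [hs]
        have : 2048 * (c * p) * ((Nat.log 2 h + 1 : ℕ) : ℝ) ≤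
            2048 * (c * p) * (1 + Real.logb 2 (h : ℝ)) :=
          mul_le_mul_of_nonneg_left hr (by positivity)
        calc _ ≤ _ := this
          _ = _ := by ring)
    have := gnpProb_ge H (n := n) s hE0.le hsmall.le
    rw [hsum] at hmain
    linarith
  · have hge : 1 ≤ 2048 * c * p * (1 + Real.logb 2 (h : ℝ)) := not_lt.1 hsmall
    rw [min_eq_left hge]
    have h2 := gnpProb_ge H (n := n) 1 zero_le_one le_rfl
    refine le_trans ?_ h2
    -- at density one the full set has all the mass
    have hnon : ∃ S : Finset (EdgeSlot n), copyLaw H S ≠ 0 := by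
      by_contra hall
      have hall' : ∀ S : Finset (EdgeSlot n), copyLaw H S = 0 :=
        fun S => by_contra fun h => hall ⟨S, h⟩
      simp [hall'] at hsum
    obtain ⟨S, hS⟩ := hnon
    have hone : wt 1 (Finset.univ : Finset (EdgeSlot n)) = 1 := by
      unfold wt; simp
    unfold Prob
    calc (1 : ℝ) / 2 ≤ wt 1 (Finset.univ : Finset (EdgeSlot n)) *
          (if Contains (copyLaw H (n := n)) Finset.univ then 1 else 0) := by
          rw [hone, if_pos ⟨S, hS, Finset.subset_univ _⟩]; norm_num
      _ ≤ _ := Finset.single_le_sum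
          (f := fun W : Finset (EdgeSlot n) => wt 1 W *
            (if Contains (copyLaw H (n := n)) W then (1 : ℝ) else 0))
          (fun W _ => mul_nonneg (wt_nonneg zero_le_one le_rfl W) (by split_ifs <;> norm_num))
          (Finset.mem_univ _)

end Crest.Agent.Lib.SpreadPP
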