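import Crest.Prelude.Def_FinProb
import Crest.Prelude.Def_RandomGraph
import Crest.Agent.Lib.SpreadPP.Graph

/-!
# Glue for S0076: the purely combinatorial form of lemma T

`SpreadBound n H q` (the injective homomorphism count of every pattern without isolated vertices
contained in `H` is at most `(n)_v q ^ e`) implies helper23's hypothesis of `half_le_of_spread`;
the expectation hypothesis of S0076 implies `AutBound n H p`.
-/

set_option autoImplicit false

open Finset
open Crest.CombinatoricsR.RandomGraph

namespace Crest.Agent.Lib.SpreadPP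

/-- The hypothesis of the second Kahn-Kalai statement in combinatorial form. -/
def AutBound (n : ℕ) {V : Type} (H : SimpleGraph V) (p : ℝ) : Prop :=
  ∀ (W : Type) [Fintype W] (U : SimpleGraph W), U.IsContained H →
    (Nat.card (U ≃g U) : ℝ) ≤ 2 * (n.descFactorial (Fintype.card W)) * p ^ U.edgeSet.ncard

/-- The spread bound (lemma T). -/
def SpreadBound (n : ℕ) {V : Type} [Fintype V] (H : SimpleGraph V) (q : ℝ) : Prop :=
  ∀ (W : Type) [Fintype W] (K : SimpleGraph W), (∀ w, ∃ w', K.Adj w w') → K.IsContained H →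
    (H.labelledCopyCount K : ℝ) ≤ (n.descFactorial (Fintype.card W)) * q ^ K.edgeSet.ncard

variable {n : ℕ}

/-- The vertices met by a set of edge slots. -/
abbrev WT (T : Finset (EdgeSlot n)) : Type := {i : Fin n // ∃ z ∈ T, i ∈ z.1}

/-- The graph of a set of edge slots, on the vertices it meets. -/
def KT (T : Finset (EdgeSlot n)) : SimpleGraph (WT T) where
  Adj i j := ∃ z ∈ T, z.1 = s(i.1, j.1)
  symm := ⟨by
    intro i j ⟨z, hz, h⟩
    exact ⟨z, hz, h.trans Sym2.eq_swap⟩⟩
  loopless := ⟨by
    intro i ⟨z, _, h⟩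
    apply z.2
    rw [h]
    simp⟩

lemma KT_no_isolated (T : Finset (EdgeSlot n)) (i : WT T) : ∃ j, (KT T).Adj i j := by
  obtain ⟨i, z, hz, hi⟩ := i
  obtain ⟨j, hj⟩ := hi
  exact ⟨⟨j, z, hz, ⟨i, by rw [hj, Sym2.eq_swap]⟩⟩, z, hz, hj⟩

lemma KT_edge_ncard (T : Finset (EdgeSlot n)) : (KT T).edgeSet.ncard = T.card := by
  classical
  have hinj : Function.Injective (Sym2.map (Subtype.val : WT T → Fin n)) :=
    Sym2.map.injective Subtype.val_injective
  have h1 : (Sym2.map (Subtype.val : WT T → Fin n)) '' (KT T).edgeSet =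
      ((T.image Subtype.val : Finset (Sym2 (Fin n))) : Set (Sym2 (Fin n))) := by
    ext y
    simp only [Set.mem_image, Finset.coe_image, Finset.mem_coe]
    constructor
    · rintro ⟨e, he, rfl⟩
      induction e using Sym2.ind with
      | _ i j =>
        obtain ⟨z, hz, h⟩ := (SimpleGraph.mem_edgeSet _).1 he
        exact ⟨z, hz, by simp [h]⟩
    · rintro ⟨z, hz, rfl⟩
      obtain ⟨y, hy⟩ := z
      induction y using Sym2.ind with
      | _ i j =>
        refine ⟨s(⟨i, ⟨_, hy⟩, hz, by simp⟩, ⟨j, ⟨_, hy⟩, hz, by simp⟩), ?_, by simp⟩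
        exact (SimpleGraph.mem_edgeSet _).2 ⟨⟨_, hy⟩, hz, rfl⟩
  rw [← Set.ncard_image_of_injective _ hinj, h1, Set.ncard_coe_finset,
    Finset.card_image_of_injective _ Subtype.val_injective]

variable {V : Type} [Fintype V] [DecidableEq V]

section Fibre

variable (H : SimpleGraph V) [DecidableRel H.Adj] (T : Finset (EdgeSlot n))

/-- Embeddings whose copy contains the slots of `T`. -/
abbrev AT : Type := {σ : V ↪ Fin n // T ⊆ slots H σ}

lemma AT_exists (σ : AT H T) (i : WT T) : ∃ a, σ.1 a = i.1 := by
  obtain ⟨σ, hσ⟩ := σ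
  obtain ⟨i, z, hz, hi⟩ := i
  obtain ⟨e, _, he⟩ := mem_slots.1 (hσ hz)
  rw [← he] at hi
  obtain ⟨a, _, ha⟩ := Sym2.mem_map.1 hi
  exact ⟨a, ha⟩

/-- The inverse of the embedding on the vertices of `T`. -/
noncomputable def ATinv (σ : AT H T) (i : WT T) : V := (AT_exists H T σ i).choose

lemma ATinv_spec (σ : AT H T) (i : WT T) : σ.1 (ATinv H T σ i) = i.1 :=
  (AT_exists H T σ i).choose_spec

/-- The copy of the graph of `T` in `H` given by the inverse of an embedding. -/
noncomputable def ATcopy (σ : AT H T) : SimpleGraph.Copy (KT T) H where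
  toHom :=
    { toFun := ATinv H T σ
      map_rel' := by
        intro i j ⟨z, hz, h⟩
        obtain ⟨e, he, hee⟩ := mem_slots.1 (σ.2 hz)
        rw [h] at hee
        induction e using Sym2.ind with
        | _ a b =>
          have hab : H.Adj a b := by simpa using he
          simp only [Sym2.map_mk, Sym2.eq_iff] at hee
          rcases hee with ⟨h1, h2⟩ | ⟨h1, h2⟩
          · have e1 : ATinv H T σ i = a := σ.1.injective ((ATinv_spec H T σ i).trans h1.symm)
            have e2 : ATinv H T σ j = b := σ.1.injective ((ATinv_spec H T σ j).trans h2.symm)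
            rw [e1, e2]; exact hab
          · have e1 : ATinv H T σ i = b := σ.1.injective ((ATinv_spec H T σ i).trans h2.symm)
            have e2 : ATinv H T σ j = a := σ.1.injective ((ATinv_spec H T σ j).trans h1.symm)
            rw [e1, e2]; exact hab.symm }
  injective' := by
    intro i j hij
    have hij' : ATinv H T σ i = ATinv H T σ j := hij
    apply Subtype.ext
    rw [← ATinv_spec H T σ i, ← ATinv_spec H T σ j, hij']

lemma ATcopy_apply (σ : AT H T) (i : WT T) : σ.1 (ATcopy H T σ i) = i.1 := ATinv_spec H T σ i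

/-- The complement restriction of an embedding with a prescribed copy. -/
noncomputable def ATrest (g : SimpleGraph.Copy (KT T) H) (σ : AT H T) (hg : ATcopy H T σ = g) :
    {x : V // x ∉ Set.range g} ↪ {i : Fin n // i ∉ {i : Fin n | ∃ z ∈ T, i ∈ z.1}} where
  toFun x := ⟨σ.1 x.1, by
    intro hx
    apply x.2
    have h := ATcopy_apply H T σ ⟨σ.1 x.1, hx⟩
    rw [hg] at h
    exact ⟨_, σ.1.injective h⟩⟩
  inj' := by
    intro x y hxy
    exact Subtype.ext (σ.1.injective (congrArg Subtype.val hxy))

lemma card_compl_aux {α : Type} [Fintype α] (S : Set α) [Fintype S] [Fintype {x // x ∉ S}] :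
    Fintype.card {x // x ∉ S} = Fintype.card α - Fintype.card S := by
  classical
  have := Fintype.card_subtype_compl (fun x => x ∈ S)
  convert this using 2

lemma fibre_card_le (g : SimpleGraph.Copy (KT T) H) :
    (Finset.univ.filter fun σ : AT H T => ATcopy H T σ = g).card ≤
      (n - Fintype.card (WT T)).descFactorial (Fintype.card V - Fintype.card (WT T)) := by
  classical
  have hcardE : Fintype.card ({x : V // x ∉ Set.range g} ↪
      {i : Fin n // i ∉ {i : Fin n | ∃ z ∈ T, i ∈ z.1}}) =
      (n - Fintype.card (WT T)).descFactorial (Fintype.card V - Fintype.card (WT T)) := by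
    rw [Fintype.card_embedding_eq]
    congr 1
    · rw [card_compl_aux, Fintype.card_fin]
      congr 1
    · have hg : Function.Injective (g : WT T → V) := g.injective
      rw [card_compl_aux, Set.card_range_of_injective hg]
  rw [← hcardE]
  have hinj : Function.Injective (fun σ : {σ : AT H T // ATcopy H T σ = g} =>
      ATrest H T g σ.1 σ.2) := by
    rintro ⟨σ, hσ⟩ ⟨τ, hτ⟩ h
    apply Subtype.ext
    apply Subtype.ext
    apply Function.Embedding.ext
    intro x
    by_cases hx : x ∈ Set.range g
    · obtain ⟨i, rfl⟩ := hx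
      have h1 := ATcopy_apply H T σ i
      have h2 := ATcopy_apply H T τ i
      rw [hσ] at h1
      rw [hτ] at h2
      rw [h1, h2]
    · have := DFunLike.congr_fun h ⟨x, hx⟩
      exact congrArg Subtype.val this
  have := Fintype.card_le_of_injective _ hinj
  rwa [Fintype.card_subtype] at this

end Fibre

lemma labelled_eq_natCard {α β : Type} [Fintype α] [Fintype β] (G : SimpleGraph α)
    (A : SimpleGraph β) : G.labelledCopyCount A = Nat.card (SimpleGraph.Copy A G) := by
  classical
  unfold SimpleGraph.labelledCopyCount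
  rw [Nat.card_eq_fintype_card]

lemma card_le_mul_of_fibres {A B : Type} [Fintype A] [Finite B] (f : A → B) (D : ℕ)
    (h : ∀ b, (open Classical in (Finset.univ.filter fun a => f a = b).card) ≤ D) :
    Fintype.card A ≤ D * Nat.card B := by
  classical
  cases nonempty_fintype B
  rw [Nat.card_eq_fintype_card, ← Finset.card_univ, ← Finset.card_univ]
  exact Finset.card_le_mul_card_image_of_maps_to (fun _ _ => Finset.mem_univ _) _
    (fun b _ => h b)

lemma copy_finite {α β : Type} [Finite α] [Finite β] (G : SimpleGraph α) (A : SimpleGraph β) :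
    Finite (SimpleGraph.Copy A G) :=
  Finite.of_injective (fun f : SimpleGraph.Copy A G => (f.toEmbedding : β ↪ α))
    (by
      intro f g h
      ext a
      exact DFunLike.congr_fun h a)

lemma AT_card_le (H : SimpleGraph V) [DecidableRel H.Adj] (T : Finset (EdgeSlot n)) :
    Fintype.card (AT H T) ≤
      (n - Fintype.card (WT T)).descFactorial (Fintype.card V - Fintype.card (WT T)) *
        H.labelledCopyCount (KT T) := by
  classical
  rw [labelled_eq_natCard]
  have := copy_finite H (KT T)
  exact card_le_mul_of_fibres (ATcopy H T) _ (fun g => by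
    convert fibre_card_le H T g)

/-- Lemma T implies the spread hypothesis of `half_le_of_spread`. -/
theorem slots_bound (H : SimpleGraph V) [DecidableRel H.Adj] {q : ℝ} (hq : 0 ≤ q)
    (hS : SpreadBound n H q) (T : Finset (EdgeSlot n)) :
    (open Classical in ((Finset.univ.filter fun σ : V ↪ Fin n => T ⊆ slots H σ).card : ℝ)) ≤
      q ^ T.card * (Fintype.card (V ↪ Fin n) : ℝ) := by
  classical
  have hcard : (Finset.univ.filter fun σ : V ↪ Fin n => T ⊆ slots H σ).card =
      Fintype.card (AT H T) := by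
    rw [Fintype.card_subtype]
  rw [hcard]
  by_cases hA : Nonempty (AT H T)
  · obtain ⟨σ₀⟩ := hA
    have hcont : (KT T).IsContained H := ⟨ATcopy H T σ₀⟩
    have hL := hS (WT T) (KT T) (KT_no_isolated T) hcont
    rw [KT_edge_ncard] at hL
    have hle : Fintype.card (WT T) ≤ Fintype.card V :=
      Fintype.card_le_of_injective _ (ATcopy H T σ₀).injective
    have h1 := AT_card_le H T
    have h2 : (n - Fintype.card (WT T)).descFactorial (Fintype.card V - Fintype.card (WT T)) *
        n.descFactorial (Fintype.card (WT T)) = n.descFactorial (Fintype.card V) :=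
      Nat.descFactorial_mul_descFactorial hle
    have h3 : Fintype.card (V ↪ Fin n) = n.descFactorial (Fintype.card V) := by
      rw [Fintype.card_embedding_eq, Fintype.card_fin]
    rw [h3, ← h2]
    generalize (n - Fintype.card (WT T)).descFactorial (Fintype.card V - Fintype.card (WT T)) = D
      at h1 ⊢
    have h1' : (Fintype.card (AT H T) : ℝ) ≤ (D : ℝ) * (H.labelledCopyCount (KT T) : ℝ) := by
      exact_mod_cast h1
    have hDnn : (0 : ℝ) ≤ D := Nat.cast_nonneg _
    calc (Fintype.card (AT H T) : ℝ) ≤ (D : ℝ) * (H.labelledCopyCount (KT T) : ℝ) := h1'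
      _ ≤ (D : ℝ) * ((n.descFactorial (Fintype.card (WT T)) : ℝ) * q ^ T.card) :=
          mul_le_mul_of_nonneg_left hL hDnn
      _ = q ^ T.card * ((D * n.descFactorial (Fintype.card (WT T)) : ℕ) : ℝ) := by
          push_cast; ring
  · have : Fintype.card (AT H T) = 0 := Fintype.card_eq_zero_iff.2 (not_nonempty_iff.1 hA)
    rw [this]
    simp only [Nat.cast_zero]
    positivity

/-! ### The expectation hypothesis -/

section Expect

lemma marginal {α : Type} [Fintype α] [DecidableEq α] (p : ℝ) (S : Finset α) :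
    (∑ ω : α → Bool, Crest.FinProb.bernoulliWeight p ω *
        (if S ⊆ boolEquiv ω then (1 : ℝ) else 0)) = p ^ S.card := by
  classical
  have h1 : ∀ ω : α → Bool, Crest.FinProb.bernoulliWeight p ω *
      (if S ⊆ boolEquiv ω then (1 : ℝ) else 0) =
      ∏ a, ((if ω a then p else 1 - p) * (if a ∈ S then (if ω a then 1 else 0) else 1)) := by
    intro ω
    rw [Finset.prod_mul_distrib]
    unfold Crest.FinProb.bernoulliWeight
    congr 1
    by_cases hS : S ⊆ boolEquiv ω
    · rw [if_pos hS]
      symm
      refine Finset.prod_eq_one fun a _ => ?_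
      by_cases ha : a ∈ S
      · have := (boolEquiv_apply_mem ω a).1 (hS ha)
        simp [ha, this]
      · simp [ha]
    · rw [if_neg hS]
      obtain ⟨a, ha, hna⟩ := Finset.not_subset.1 hS
      have hf : ω a ≠ true := fun h => hna ((boolEquiv_apply_mem ω a).2 h)
      symm
      refine Finset.prod_eq_zero (Finset.mem_univ a) ?_
      simp [ha, hf]
  simp_rw [h1]
  have h2 := (Finset.prod_univ_sum (fun _ : α => (Finset.univ : Finset Bool))
    (fun a b => (if b then p else 1 - p) * (if a ∈ S then (if b then (1 : ℝ) else 0) else 1)))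
  rw [Fintype.piFinset_univ] at h2
  rw [← h2]
  have h3 : ∀ a : α, (∑ b : Bool, (if b then p else 1 - p) *
      (if a ∈ S then (if b then (1 : ℝ) else 0) else 1)) = if a ∈ S then p else 1 := by
    intro a
    by_cases ha : a ∈ S <;> simp [ha]
  simp_rw [h3]
  rw [Finset.prod_ite_mem, Finset.univ_inter, Finset.prod_const]

lemma toSubgraph_comp_aut {α β : Type} {G : SimpleGraph α} {U : SimpleGraph β}
    (f : SimpleGraph.Copy U G) (φ : U ≃g U) :
    (f.comp φ.toCopy).toSubgraph = f.toSubgraph := by
  refine SimpleGraph.Subgraph.ext ?_ ?_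
  · ext x
    simp only [SimpleGraph.Copy.toSubgraph, SimpleGraph.Subgraph.map_verts,
      SimpleGraph.Subgraph.verts_top, Set.image_univ, Set.mem_range]
    constructor
    · rintro ⟨a, rfl⟩
      exact ⟨φ a, rfl⟩
    · rintro ⟨a, rfl⟩
      exact ⟨φ.symm a, by simp [SimpleGraph.Copy.comp]⟩
  · ext x y
    simp only [SimpleGraph.Copy.toSubgraph, SimpleGraph.Subgraph.map_adj, Relation.Map,
      SimpleGraph.Subgraph.top_adj]
    constructor
    · rintro ⟨a, b, hab, rfl, rfl⟩
      exact ⟨φ a, φ b, φ.map_rel_iff.2 hab, rfl, rfl⟩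
    · rintro ⟨a, b, hab, rfl, rfl⟩
      refine ⟨φ.symm a, φ.symm b, ?_, by simp [SimpleGraph.Copy.comp],
        by simp [SimpleGraph.Copy.comp]⟩
      exact φ.symm.map_rel_iff.2 hab

lemma aut_finite {β : Type} [Finite β] (U : SimpleGraph β) : Finite (U ≃g U) :=
  Finite.of_injective (fun f : U ≃g U => (f.toEquiv : β ≃ β))
    (by
      intro f g h
      ext a
      exact DFunLike.congr_fun h a)

lemma copy_mul_aut_le {α β : Type} [Fintype α] [Fintype β] (G : SimpleGraph α) (U : SimpleGraph β) :
    G.copyCount U * Nat.card (U ≃g U) ≤ G.labelledCopyCount U := by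
  classical
  have := copy_finite G U
  have := aut_finite U
  rw [labelled_eq_natCard]
  let S : Type := {G' : G.Subgraph // Nonempty (U ≃g G'.coe)}
  have hS : G.copyCount U = Nat.card S := by
    unfold SimpleGraph.copyCount
    rw [Nat.card_eq_fintype_card, Fintype.card_subtype]
  have hex : ∀ s : S, ∃ f : SimpleGraph.Copy U G, f.toSubgraph = s.1 := by
    intro s
    have : s.1 ∈ Set.range (SimpleGraph.Copy.toSubgraph (A := U) (B := G)) := by
      rw [SimpleGraph.Copy.range_toSubgraph]
      exact s.2
    exact this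
  choose f hf using hex
  rw [hS, ← Nat.card_prod]
  refine Nat.card_le_card_of_injective (fun x : S × (U ≃g U) => (f x.1).comp x.2.toCopy) ?_
  rintro ⟨s, φ⟩ ⟨t, ψ⟩ h
  have h' : (f s).comp φ.toCopy = (f t).comp ψ.toCopy := h
  have h1 : s = t := by
    apply Subtype.ext
    rw [← hf s, ← hf t, ← toSubgraph_comp_aut (f s) φ, ← toSubgraph_comp_aut (f t) ψ, h']
  subst h1
  have h2 : φ = ψ := by
    ext a
    have := DFunLike.congr_fun h' a
    exact (f s).injective this
  rw [h2]

lemma card_slots_eq {W : Type} [Fintype W] [DecidableEq W] (U : SimpleGraph W) [DecidableRel U.Adj]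
    (σ : W ↪ Fin n) : (slots U σ).card = U.edgeSet.ncard := by
  classical
  have h1 : (slots U σ).card = ((slots U σ).image Subtype.val).card :=
    (Finset.card_image_of_injective _ Subtype.val_injective).symm
  have h2 : (slots U σ).image Subtype.val = U.edgeFinset.image (Sym2.map σ) := by
    ext y
    simp only [Finset.mem_image, mem_slots]
    constructor
    · rintro ⟨z, ⟨e, he, hee⟩, rfl⟩
      exact ⟨e, he, hee⟩
    · rintro ⟨e, he, rfl⟩
      have hnd : ¬ (Sym2.map σ e).IsDiag := by
        induction e using Sym2.ind with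
        | _ a b =>
          have hab : U.Adj a b := by simpa using he
          simpa using fun h : σ a = σ b => hab.ne (σ.injective h)
      exact ⟨⟨Sym2.map σ e, hnd⟩, ⟨e, he, rfl⟩, rfl⟩
  rw [h1, h2, Finset.card_image_of_injective _ (Sym2.map.injective σ.injective),
    ← Set.ncard_coe_finset, SimpleGraph.coe_edgeFinset]

lemma labelled_le {W : Type} [Fintype W] [DecidableEq W] (U : SimpleGraph W) [DecidableRel U.Adj]
    (ω : EdgeSlot n → Bool) :
    (graphOf ω).labelledCopyCount U ≤
      (Finset.univ.filter fun σ : W ↪ Fin n => slots U σ ⊆ boolEquiv ω).card := by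
  classical
  rw [labelled_eq_natCard]
  have := copy_finite (graphOf ω) U
  rw [← Fintype.card_subtype, ← Nat.card_eq_fintype_card]
  refine Nat.card_le_card_of_injective
    (fun f : SimpleGraph.Copy U (graphOf ω) => ⟨f.toEmbedding, ?_⟩) ?_
  · intro z hz
    obtain ⟨e, he, hee⟩ := mem_slots.1 hz
    induction e using Sym2.ind with
    | _ a b =>
      have hab : U.Adj a b := by simpa using he
      have hadj := f.toHom.map_adj hab
      unfold graphOf at hadj
      rw [SimpleGraph.fromEdgeSet_adj] at hadj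
      obtain ⟨⟨hd, hω⟩, _⟩ := hadj
      have hz' : z = ⟨s(f a, f b), hd⟩ := Subtype.ext hee.symm
      rw [hz']
      exact (boolEquiv_apply_mem ω _).2 hω
  · intro f g h
    refine SimpleGraph.Copy.ext fun a => ?_
    exact DFunLike.congr_fun (congrArg Subtype.val h) a

lemma weight_nonneg {α : Type} [Fintype α] {p : ℝ} (h0 : 0 ≤ p) (h1 : p ≤ 1) (ω : α → Bool) :
    0 ≤ Crest.FinProb.bernoulliWeight p ω :=
  Finset.prod_nonneg fun a _ => by split_ifs <;> linarith

lemma expect_labelled_le {W : Type} [Fintype W] (U : SimpleGraph W) {p : ℝ} (h0 : 0 ≤ p)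
    (h1 : p ≤ 1) :
    gnpExpect n p (fun G => (G.labelledCopyCount U : ℝ)) ≤
      (n.descFactorial (Fintype.card W) : ℝ) * p ^ U.edgeSet.ncard := by
  classical
  unfold gnpExpect
  have hstep : ∀ ω : EdgeSlot n → Bool,
      Crest.FinProb.bernoulliWeight p ω * ((graphOf ω).labelledCopyCount U : ℝ) ≤
      ∑ σ : W ↪ Fin n, Crest.FinProb.bernoulliWeight p ω *
        (if slots U σ ⊆ boolEquiv ω then (1 : ℝ) else 0) := by
    intro ω
    rw [← Finset.mul_sum]
    refine mul_le_mul_of_nonneg_left ?_ (weight_nonneg h0 h1 ω)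
    have := labelled_le U ω
    rw [Finset.sum_boole]
    exact_mod_cast this
  refine (Finset.sum_le_sum fun ω _ => hstep ω).trans ?_
  rw [Finset.sum_comm]
  simp_rw [marginal, card_slots_eq]
  rw [Finset.sum_const, Finset.card_univ, Fintype.card_embedding_eq, Fintype.card_fin, nsmul_eq_mul]

lemma copyCount_congr {α β γ : Type} [Fintype α] (G : SimpleGraph α) {A : SimpleGraph β}
    {B : SimpleGraph γ} (e : A ≃g B) : G.copyCount A = G.copyCount B := by
  classical
  unfold SimpleGraph.copyCount
  congr 1
  ext G'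
  simp only [Finset.mem_filter, Finset.mem_univ, true_and]
  exact ⟨fun ⟨f⟩ => ⟨e.symm.trans f⟩, fun ⟨f⟩ => ⟨e.trans f⟩⟩

/-- The expectation hypothesis of S0076 in combinatorial form. -/
theorem autBound_of_expect (H : SimpleGraph V) {p : ℝ} (h0 : 0 ≤ p) (h1 : p ≤ 1)
    (hE : ∀ F : H.Subgraph, (1 : ℝ) / 2 ≤ gnpExpect n p (fun G => (G.copyCount F.coe : ℝ))) :
    AutBound n H p := by
  classical
  intro W _ U hU
  obtain ⟨F, ⟨e⟩⟩ := SimpleGraph.isContained_iff_exists_iso_subgraph.1 hU
  have h2 := hE F
  have h3 := expect_labelled_le (n := n) U h0 h1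
  have h4 : gnpExpect n p (fun G => (G.copyCount F.coe : ℝ)) * (Nat.card (U ≃g U) : ℝ) ≤
      gnpExpect n p (fun G => (G.labelledCopyCount U : ℝ)) := by
    unfold gnpExpect
    rw [Finset.sum_mul]
    refine Finset.sum_le_sum fun ω _ => ?_
    rw [mul_assoc]
    refine mul_le_mul_of_nonneg_left ?_ (weight_nonneg h0 h1 ω)
    show ((graphOf ω).copyCount F.coe : ℝ) * _ ≤ ((graphOf ω).labelledCopyCount U : ℝ)
    rw [← copyCount_congr _ e]
    exact_mod_cast copy_mul_aut_le (graphOf ω) U
  have h5 : (0 : ℝ) ≤ (Nat.card (U ≃g U) : ℝ) := Nat.cast_nonneg _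
  nlinarith [mul_le_mul_of_nonneg_right h2 h5]

end Expect

/-- Lemma T: the single combinatorial statement S0076 reduces to. -/
def LemmaT : Prop :=
  ∀ (n : ℕ) (V : Type) [Fintype V] [DecidableEq V] (H : SimpleGraph V) (p : ℝ),
    2 ≤ n → 0 < p → 2048 * Real.exp 50 * p < 1 → Fintype.card V ≤ n → H ≠ ⊥ →
    AutBound n H p → SpreadBound n H (Real.exp 50 * p)

/-- The conclusion of S0076 from lemma T. -/
theorem S0076_of_LemmaT (hT : LemmaT)
    (n : ℕ) (hn : 2 ≤ n) (W : Type) [Fintype W] [DecidableEq W] (H : SimpleGraph W)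
    [DecidableRel H.Adj] (hW : Fintype.card W ≤ n) (hH : 1 ≤ H.edgeFinset.card)
    (p : ℝ) (hp0 : 0 ≤ p) (hp1 : p ≤ 1)
    (hE : ∀ F : H.Subgraph, (1 : ℝ) / 2 ≤
      Crest.CombinatoricsR.RandomGraph.gnpExpect n p (fun G => (G.copyCount F.coe : ℝ))) :
    (1 : ℝ) / 2 ≤ Crest.CombinatoricsR.RandomGraph.gnpProb n
      (min 1 (2048 * Real.exp 50 * p * (1 + Real.logb 2 (H.edgeFinset.card : ℝ))))
      {G | H.IsContained G} := by
  classical
  have hA := autBound_of_expect (n := n) H hp0 hp1 hE
  have hne : H ≠ ⊥ := by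
    rintro rfl
    simp at hH
  have hpos : 0 < p := by
    rcases hp0.lt_or_eq with h | h
    · exact h
    · exfalso
      have h1 := hA W H (SimpleGraph.IsContained.refl H)
      subst h
      have he : H.edgeSet.ncard ≠ 0 := by
        rw [← SimpleGraph.coe_edgeFinset, Set.ncard_coe_finset]
        omega
      rw [zero_pow he, mul_zero] at h1
      have := aut_finite H
      have h2 : 0 < Nat.card (H ≃g H) := Nat.card_pos_iff.2 ⟨⟨SimpleGraph.Iso.refl⟩, inferInstance⟩
      have h3 : (0 : ℝ) < Nat.card (H ≃g H) := by exact_mod_cast h2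
      linarith
  have hlog : (0 : ℝ) ≤ Real.logb 2 (H.edgeFinset.card : ℝ) :=
    Real.logb_nonneg (by norm_num) (by exact_mod_cast hH)
  refine half_le_of_spread H hW hH (Real.exp 50) p (Real.one_le_exp (by norm_num)) hpos ?_
  intro hsmall T
  have hs : 2048 * Real.exp 50 * p < 1 := by
    have hc : 0 < 2048 * Real.exp 50 * p := by positivity
    nlinarith
  exact slots_bound H (by positivity) (hT n W H p hn hpos hs hW hne hA) T

end Crest.Agent.Lib.SpreadPP
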